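import Vale.Agent.P066.Theta.H307.Joint
import Vale.Agent.P066.Theta.H747.QuiverStatement

/-!
# The finite quiver theorem gives the local theorem
-/

set_option autoImplicit false

open Finset

namespace Vale.Agent.P066.Theta.H307

noncomputable section

open QSeries

/-- The quiver with `A s t` arrows from `t` to `s` for `s < t` and `e s` loops. -/
def arr {n : ℕ} (A : Matrix (Fin n) (Fin n) ℤ) (e : Fin n → Bool) (s t : Fin n) : ℕ :=
  if s = t then (if e s then 1 else 0) else if t < s then (A t s).toNat else 0

theorem quivB_arr {n : ℕ} (A : Matrix (Fin n) (Fin n) ℤ) (hA : A.transpose = -A)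
    (hpos : ∀ s t, s < t → 0 ≤ A s t) (e : Fin n → Bool) : quivB (arr A e) = A := by
  have hsk : ∀ i j, A i j = - A j i := by
    intro i j
    have := congrFun (congrFun hA j) i
    simpa [Matrix.transpose_apply] using this
  ext s t
  unfold quivB arr
  rcases lt_trichotomy s t with h | h | h
  · rw [if_neg h.ne', if_pos h, if_neg h.ne, if_neg (not_lt.2 h.le)]
    rw [Int.toNat_of_nonneg (hpos s t h)]
    simp
  · subst h
    have : A s s = 0 := by
      have := hsk s s
      omega
    rw [this]
    simp
  · rw [if_neg h.ne, if_neg (not_lt.2 h.le), if_neg h.ne', if_pos h]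
    rw [Int.toNat_of_nonneg (hpos t s h), hsk s t]
    simp

theorem quiverThm_of (h : QuiverTheorem) : QuiverThm := by
  intro n A hA hpos e θ hgen D gp g0 gm ht
  have hB := quivB_arr A hA hpos e
  have key := h n (arr A e) e (by
    intro i j hij
    unfold arr
    rw [if_neg hij.ne, if_neg (not_lt.2 hij.le)]) (by
    intro i
    unfold arr
    rw [if_pos rfl]) θ
  unfold quivProd at key
  rw [hB] at key
  exact key hgen gp g0 gm ht D

/-- **The finite quiver theorem gives the local theorem.** -/
theorem localTheorem_of_quiverTheorem (h : QuiverTheorem) : LocalTheorem :=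
  localTheorem_of_quiverThm (quiverThm_of h)

end

end Vale.Agent.P066.Theta.H307
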