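import Vale.Agent.P066.Theta.H307.Peel

/-!
# The local theorem follows from the theorem on quivers
-/

set_option autoImplicit false

open Finset

namespace Vale.Agent.P066.Theta.H307

noncomputable section

open QSeries

variable {r n : ℕ} {B : Matrix (Fin r) (Fin r) ℤ} {Λ : AddSubgroup (Fin r → ℤ)}

theorem posRay_congr {D : ℕ} {b : Fin r →₀ ℕ} {F F' : QSeries B} (h : EqD D F F')
    (hF : PosRay D b F) : PosRay D b F' := by
  obtain ⟨l, hl, hc⟩ := hF
  refine ⟨l, hl, fun n hn => ?_⟩
  rw [← hc n hn, h _ (by rwa [deg_smul])]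

theorem unitQ_zero (u : Bool × ℤ × (Fin r →₀ ℕ)) : unitQ B u 0 = 1 := by
  unfold unitQ
  rw [deg_zero, zero_add, sum_range_one, zero_smul, if_pos rfl]
  simp only [Nat.cast_zero, mul_zero, zpow_zero, mul_one]
  unfold epsCoeff psi
  split_ifs <;> simp

theorem prod_zero_apply (L : List (QSeries B)) (h : ∀ F ∈ L, F 0 = 1) : L.prod 0 = 1 := by
  induction L with
  | nil => simp
  | cons F L ih =>
    rw [List.prod_cons, mul_zero_apply, h F List.mem_cons_self,
      ih fun G hG => h G (List.mem_cons_of_mem _ hG), one_mul]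

theorem push_list (J : Fin n → ℤ) {c : Fin n → Fin r →₀ ℕ} (hc : ∀ s, c s ≠ 0)
    (L : List (QSeries (pullB B c))) : push B J c L.prod = (L.map (push B J c)).prod := by
  induction L with
  | nil => simp [push_one J hc]
  | cons F L ih => rw [List.prod_cons, List.map_cons, List.prod_cons, push_mul J hc, ih]

theorem push_zero (J : Fin n → ℤ) {c : Fin n → Fin r →₀ ℕ} (hc : ∀ s, c s ≠ 0)
    (F : QSeries (pullB B c)) : push B J c F 0 = F 0 := by
  unfold push
  have : pfib c 0 = {0} := by
    ext d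
    rw [mem_pfib hc, mem_singleton]
    constructor
    · intro h
      have := deg_le_pmap hc d
      rw [h, deg_zero] at this
      exact deg_eq_zero.1 (by omega)
    · rintro rfl
      exact map_zero _
  rw [this, sum_singleton]
  simp

theorem push_eqD (J : Fin n → ℤ) {c : Fin n → Fin r →₀ ℕ} (hc : ∀ s, c s ≠ 0) {D : ℕ}
    {F G : QSeries (pullB B c)} (h : EqD D F G) : EqD D (push B J c F) (push B J c G) := by
  intro γ hγ
  unfold push
  refine sum_congr rfl fun d hd => ?_
  rw [mem_pfib hc] at hd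
  rw [h d]
  have := deg_le_pmap hc d
  rw [hd] at this
  omega

theorem push_ne_zero (J : Fin n → ℤ) {c : Fin n → Fin r →₀ ℕ} (hc : ∀ s, c s ≠ 0)
    {F : QSeries (pullB B c)} {γ : Fin r →₀ ℕ} (h : push B J c F γ ≠ 0) :
    ∃ d, pmap c d = γ ∧ F d ≠ 0 := by
  unfold push at h
  obtain ⟨d, hd, h1⟩ := exists_ne_zero_of_sum_ne_zero h
  rw [mem_pfib hc] at hd
  exact ⟨d, hd, fun h0 => h1 (by rw [h0, mul_zero])⟩

theorem wt_pmap (Q : Fin r → ℤ) (c : Fin n → Fin r →₀ ℕ) (d : Fin n →₀ ℕ) :
    wt Q (pmap c d) = wt (fun s => wt Q (c s)) d := by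
  have h : ∀ S : Finset (Fin n), wt Q (∑ s ∈ S, d s • c s) = ∑ s ∈ S, (d s : ℤ) * wt Q (c s) := by
    intro S
    classical
    induction S using Finset.induction_on with
    | empty => simp
    | insert a S ha ih => rw [sum_insert ha, sum_insert ha, wt_add, wt_smul, ih]
  rw [pmap_apply, h]
  rfl

/-- The push forward of a triple. -/
theorem push_triple (J : Fin n → ℤ) {c : Fin n → Fin r →₀ ℕ} (hc : ∀ s, c s ≠ 0) (Q : Fin r → ℤ)
    {T tp t0 tm : QSeries (pullB B c)} (h : IsTriple T tp t0 tm (fun s => wt Q (c s))) :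
    IsTriple (push B J c T) (push B J c tp) (push B J c t0) (push B J c tm) Q where
  gp_zero := by rw [push_zero J hc, h.gp_zero]
  gp_supp := by
    intro γ h0 hγ
    obtain ⟨d, hd, h1⟩ := push_ne_zero J hc hγ
    rw [← hd, wt_pmap]
    refine h.gp_supp d ?_ h1
    rintro rfl
    exact h0 (by rw [← hd, map_zero])
  g0_zero := by rw [push_zero J hc, h.g0_zero]
  g0_supp := by
    intro γ hγ
    obtain ⟨d, hd, h1⟩ := push_ne_zero J hc hγ
    rw [← hd, wt_pmap]
    exact h.g0_supp d h1
  gm_zero := by rw [push_zero J hc, h.gm_zero]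
  gm_supp := by
    intro γ h0 hγ
    obtain ⟨d, hd, h1⟩ := push_ne_zero J hc hγ
    rw [← hd, wt_pmap]
    refine h.gm_supp d ?_ h1
    rintro rfl
    exact h0 (by rw [← hd, map_zero])
  eq := by rw [h.eq, push_mul J hc, push_mul J hc]

theorem units_on_ray {b : Fin r →₀ ℕ} (L : List (Bool × ℤ × (Fin r →₀ ℕ)))
    (h : ∀ u ∈ L, u.2.2 ≠ 0 ∧ ∃ k : ℕ, u.2.2 = k • b) :
    ∃ l : List (Bool × ℤ × ℕ), (∀ u ∈ l, 0 < u.2.2) ∧
      L = l.map fun u => (u.1, u.2.1, u.2.2 • b) := by
  induction L with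
  | nil => exact ⟨[], by simp, rfl⟩
  | cons u L ih =>
    obtain ⟨l, hl, e⟩ := ih fun w hw => h w (List.mem_cons_of_mem _ hw)
    obtain ⟨h0, k, hk⟩ := h u List.mem_cons_self
    refine ⟨(u.1, u.2.1, k) :: l, ?_, ?_⟩
    · intro w hw
      rcases List.mem_cons.1 hw with rfl | hw
      · show 0 < k
        rw [Nat.pos_iff_ne_zero]
        rintro rfl
        exact h0 (by rw [hk, zero_smul])
      · exact hl w hw
    · rw [List.map_cons, ← e]
      obtain ⟨u1, u2, u3⟩ := u
      simp only at hk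
      rw [hk]

/-- **The local theorem follows from the theorem on quivers.** -/
theorem localTheorem_of_quiverThm (hq : QuiverThm) : LocalTheorem := by
  classical
  intro r B hB Λ D G hG0 hGΛ hdep hsat hnd hin b hb0 hbΛ hbprim gp g0 gm ht
  have h : RankTwo B Λ := ⟨hB, hdep, hsat, hnd⟩
  have hbP : Prim b := hbprim
  -- cut off
  set G' : QSeries B := fun γ => if toZ γ ∈ Λ then G γ else 0 with hG'
  have hG'0 : G' 0 = 1 := by
    simp only [hG', toZ_zero]
    rw [if_pos Λ.zero_mem, hG0]
  have hGG' : EqD D G G' := by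
    intro γ hγ
    simp only [hG']
    split_ifs with h1
    · rfl
    · by_contra h2
      exact h1 (hGΛ γ hγ h2)
  have hG'Λ : ∀ γ, G' γ ≠ 0 → toZ γ ∈ Λ := by
    intro γ hγ
    by_contra h1
    exact hγ (by simp only [hG', if_neg h1])
  -- the list of units
  obtain ⟨L, hL0, hLΛ, hLord, hLprod⟩ := exists_units h D G' hG'0 hG'Λ (by
    intro b' hb' hb'Λ gp' g0' gm' ht'
    obtain ⟨hp, h0, hm, ht2⟩ := exists_triple hG0 (chartAt B 0 b')
    exact posRay_congr (triple_congr ht2 ht' hGG').2.1
      (hin b' hb'.ne_zero hb'Λ hb' hp h0 hm ht2))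
  -- the quiver
  set c : Fin L.length → Fin r →₀ ℕ := fun s => (L.get s).2.2 with hcdef
  have hc : ∀ s, c s ≠ 0 := fun s => hL0 _ (List.get_mem L s)
  have hcΛ : ∀ s, toZ (c s) ∈ Λ := fun s => hLΛ _ (List.get_mem L s)
  set J : Fin L.length → ℤ := fun s => (L.get s).2.1 with hJ
  set e : Fin L.length → Bool := fun s => (L.get s).1 with he
  set Q : Fin r → ℤ := -(chartAt B 0 b) with hQ
  have hpmapΛ : ∀ d : Fin L.length →₀ ℕ, toZ (pmap c d) ∈ Λ := by
    intro d
    rw [toZ_pmap]
    exact Λ.sum_mem fun s _ => Λ.zsmul_mem (hcΛ s) _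
  have hray : ∀ d : Fin L.length →₀ ℕ, wt (fun s => wt Q (c s)) d = 0 →
      ∃ k : ℕ, pmap c d = k • b := by
    intro d hd
    rw [← wt_pmap, hQ, wt_neg, wt_chart, neg_eq_zero] at hd
    exact h.mem_ray hbP hbΛ (hpmapΛ d) hd
  set T : QSeries (pullB B c) :=
    (List.ofFn fun s => unitQ (pullB B c) (e s, 0, Finsupp.single s 1)).prod with hT
  have hT0 : T 0 = 1 := by
    refine prod_zero_apply _ fun F hF => ?_
    obtain ⟨s, rfl⟩ := List.mem_ofFn.1 hF
    exact unitQ_zero _
  obtain ⟨tp, t0, tm, htr⟩ := exists_triple hT0 (fun s => wt Q (c s))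
  obtain ⟨L0, hL0', hL0prod⟩ := hq L.length (pullB B c) (pullB_skew hB c) (by
    intro s t hst
    exact List.pairwise_iff_get.1 hLord s t hst) e (fun s => wt Q (c s)) (by
    intro d d' hd hd'
    obtain ⟨k, hk⟩ := hray d hd
    obtain ⟨k', hk'⟩ := hray d' hd'
    rw [← omega_pmap, hk, hk', omega_smul_smul hB]) D tp t0 tm htr
  -- the push forward of `T` is `G`
  have hpushT : push B J c T = (L.map (unitQ B)).prod := by
    rw [hT, push_list J hc, List.map_ofFn]
    congr 1
    have : (push B J c ∘ fun s => unitQ (pullB B c) (e s, 0, Finsupp.single s 1)) =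
        fun s => unitQ B (L.get s) := by
      funext s
      have h1 : (Finsupp.single s 1 : Fin L.length →₀ ℕ) ≠ 0 := by
        simp
      rw [Function.comp_apply, push_unitQ J hc _ h1]
      simp only [pmap_single, one_smul, zero_add]
      have h2 : wt J (Finsupp.single s 1) = J s := by
        unfold wt
        rw [Finset.sum_eq_single s]
        · simp
        · intro t _ ht
          simp [ht.symm]
        · intro h
          exact absurd (mem_univ s) h
      rw [h2]
    rw [this]
    apply List.ext_get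
    · simp
    · intro i h1 h2
      simp
  have hGT : EqD D G (push B J c T) := by
    rw [hpushT]
    exact hGG'.trans hLprod
  have hfin : EqD D g0 (push B J c t0) := (triple_congr ht (push_triple J hc Q htr) hGT).2.1
  have hfin2 : EqD D (push B J c t0)
      ((L0.map fun u => (u.1, u.2.1 + wt J u.2.2, pmap c u.2.2)).map (unitQ B)).prod := by
    have h1 : EqD D t0 (L0.map (unitQ (pullB B c))).prod := hL0prod
    have h2 := push_eqD J hc h1
    rw [push_list J hc] at h2
    have h3 : (L0.map (unitQ (pullB B c))).map (push B J c) =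
        (L0.map fun u => (u.1, u.2.1 + wt J u.2.2, pmap c u.2.2)).map (unitQ B) := by
      rw [List.map_map, List.map_map]
      refine List.map_congr_left fun u hu => ?_
      rw [Function.comp_apply, Function.comp_apply, push_unitQ J hc u (hL0' u hu).1]
    rw [h3] at h2
    exact h2
  obtain ⟨l, hl, hLl⟩ := units_on_ray (b := b)
    (L0.map fun u => (u.1, u.2.1 + wt J u.2.2, pmap c u.2.2)) (by
      intro u hu
      obtain ⟨w, hw, rfl⟩ := List.mem_map.1 hu
      obtain ⟨h1, h2⟩ := hL0' w hw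
      refine ⟨?_, hray _ h2⟩
      intro h3
      have := deg_le_pmap hc w.2.2
      have h4 : pmap c w.2.2 = 0 := h3
      rw [h4, deg_zero] at this
      exact h1 (deg_eq_zero.1 (by omega)))
  refine ⟨l, hl, fun m hm => ?_⟩
  rw [hfin _ (by rwa [deg_smul]), hfin2 _ (by rwa [deg_smul]), hLl,
    ← ray_list hB hb0 l hl, ray_smul hb0]

end

end Vale.Agent.P066.Theta.H307
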