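import Vale.Agent.P066.Theta.H307.Rank2

/-!
# The ordered product of units

If all incoming rays of `G` (rank two) are of positive type then `G` is, up to degree `D`, the
product of units `E_e(v^j x^γ)`, ordered so that `ω(γ, γ') ≥ 0` for earlier `γ`.
-/

set_option autoImplicit false

open Finset

namespace Vale.Agent.P066.Theta.H307

noncomputable section

open QSeries

variable {r : ℕ} {B : Matrix (Fin r) (Fin r) ℤ} {Λ : AddSubgroup (Fin r → ℤ)}

/-- `{0} ∪ {γ ∈ Λ : ω(c, γ) > τ deg γ}`. -/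
def upSub (B : Matrix (Fin r) (Fin r) ℤ) (Λ : AddSubgroup (Fin r → ℤ)) (c : Fin r →₀ ℕ) (τ : ℚ) :
    AddSubmonoid (Fin r →₀ ℕ) where
  carrier := {γ | γ = 0 ∨ (toZ γ ∈ Λ ∧ τ * (deg γ : ℚ) < (omega B (toZ c) (toZ γ) : ℚ))}
  zero_mem' := Or.inl rfl
  add_mem' := by
    intro a b ha hb
    simp only [Set.mem_ofPred_eq] at ha hb ⊢
    rcases ha with rfl | ha
    · rwa [zero_add]
    · rcases hb with rfl | hb
      · rw [add_zero]
        exact Or.inr ha
      · refine Or.inr ⟨?_, ?_⟩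
        · rw [toZ_add]
          exact Λ.add_mem ha.1 hb.1
        · rw [toZ_add, omega_add_right, deg_add]
          push_cast
          linarith [ha.2, hb.2]

theorem mem_upSub {c : Fin r →₀ ℕ} {τ : ℚ} {γ : Fin r →₀ ℕ} : γ ∈ upSub B Λ c τ ↔
    γ = 0 ∨ (toZ γ ∈ Λ ∧ τ * (deg γ : ℚ) < (omega B (toZ c) (toZ γ) : ℚ)) := Iff.rfl

theorem toZ_mem_of_upSub {c : Fin r →₀ ℕ} {τ : ℚ} {γ : Fin r →₀ ℕ} (h : γ ∈ upSub B Λ c τ) :
    toZ γ ∈ Λ := by
  rcases mem_upSub.1 h with rfl | h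
  · rw [toZ_zero]
    exact Λ.zero_mem
  · exact h.1

/-- the slope -/
def slp (B : Matrix (Fin r) (Fin r) ℤ) (c γ : Fin r →₀ ℕ) : ℚ :=
  (omega B (toZ c) (toZ γ) : ℚ) / (deg γ : ℚ)

theorem lt_slp {c γ : Fin r →₀ ℕ} (h : γ ≠ 0) (τ : ℚ) :
    τ < slp B c γ ↔ τ * (deg γ : ℚ) < (omega B (toZ c) (toZ γ) : ℚ) := by
  have : (0 : ℚ) < deg γ := by exact_mod_cast deg_pos h
  exact lt_div_iff₀ this

theorem slp_lt_iff (h : RankTwo B Λ) {a b c : Fin r →₀ ℕ} (ha : toZ a ∈ Λ) (hb : toZ b ∈ Λ)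
    (hc : toZ c ∈ Λ) (ha0 : a ≠ 0) (hb0 : b ≠ 0) (hc0 : c ≠ 0) :
    slp B c a < slp B c b ↔ 0 < omega B (toZ a) (toZ b) := by
  have had : (0 : ℚ) < deg a := by exact_mod_cast deg_pos ha0
  have hbd : (0 : ℚ) < deg b := by exact_mod_cast deg_pos hb0
  have hcd : (0 : ℚ) < deg c := by exact_mod_cast deg_pos hc0
  have e : (omega B (toZ a) (toZ b) : ℚ) * deg c =
      deg a * omega B (toZ c) (toZ b) - deg b * omega B (toZ c) (toZ a) := by
    exact_mod_cast h.slope ha hb hc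
  unfold slp
  rw [div_lt_div_iff₀ had hbd]
  constructor
  · intro h1
    have : 0 < (omega B (toZ a) (toZ b) : ℚ) * deg c := by
      rw [e]
      linarith
    have := (mul_pos_iff_of_pos_right hcd).1 this
    exact_mod_cast this
  · intro h1
    have h2 : (0 : ℚ) < (omega B (toZ a) (toZ b) : ℚ) := by exact_mod_cast h1
    have h3 := mul_pos h2 hcd
    rw [e] at h3
    linarith

theorem slp_smul (c b : Fin r →₀ ℕ) {m : ℕ} (hm : 0 < m) : slp B c (m • b) = slp B c b := by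
  unfold slp
  rw [toZ_smul, omega_smul_right, deg_smul]
  push_cast
  have : (m : ℚ) ≠ 0 := by exact_mod_cast hm.ne'
  exact mul_div_mul_left _ _ this

/-- The nonzero vectors of degree `≤ D` and slope `> τ`. -/
def upBox (B : Matrix (Fin r) (Fin r) ℤ) (Λ : AddSubgroup (Fin r → ℤ)) (c : Fin r →₀ ℕ) (D : ℕ)
    (τ : ℚ) : Finset (Fin r →₀ ℕ) := by
  classical
  exact (Finset.Iic (Finsupp.equivFunOnFinite.symm fun _ => D)).filter fun γ =>
    deg γ ≤ D ∧ γ ≠ 0 ∧ toZ γ ∈ Λ ∧ τ < slp B c γ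

theorem mem_upBox {c : Fin r →₀ ℕ} {D : ℕ} {τ : ℚ} {γ : Fin r →₀ ℕ} : γ ∈ upBox B Λ c D τ ↔
    deg γ ≤ D ∧ γ ≠ 0 ∧ toZ γ ∈ Λ ∧ τ < slp B c γ := by
  classical
  unfold upBox
  rw [mem_filter, Finset.mem_Iic]
  constructor
  · exact fun h => h.2
  · intro h
    refine ⟨fun s => ?_, h⟩
    simp only [Finsupp.equivFunOnFinite_symm_apply_apply]
    exact (le_deg γ s).trans h.1

/-- Ordered lists of units. -/
structure IsUnits (B : Matrix (Fin r) (Fin r) ℤ) (N : AddSubmonoid (Fin r →₀ ℕ))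
    (L : List (Bool × ℤ × (Fin r →₀ ℕ))) : Prop where
  ne_zero : ∀ u ∈ L, u.2.2 ≠ 0
  mem : ∀ u ∈ L, u.2.2 ∈ N
  order : L.Pairwise fun u u' => 0 ≤ omega B (toZ u.2.2) (toZ u'.2.2)

/-- On a ray: `PosRay` gives a list of units. -/
theorem posRay_units (hB : B.transpose = -B) {b : Fin r →₀ ℕ} (hb : b ≠ 0) {D : ℕ}
    {F : QSeries B} (hF : PosRay D b F) (hsupp : ∀ γ, F γ ≠ 0 → ∃ k : ℕ, γ = k • b) :
    ∃ l : List (Bool × ℤ × ℕ), (∀ u ∈ l, 0 < u.2.2) ∧
      EqD D F (((l.map fun u => (u.1, u.2.1, u.2.2 • b)).map (unitQ B)).prod) := by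
  obtain ⟨l, hl, hc⟩ := hF
  refine ⟨l, hl, ?_⟩
  rw [← ray_list hB hb l hl]
  intro γ hγ
  by_cases h : ∃ n : ℕ, γ = n • b
  · obtain ⟨n, rfl⟩ := h
    rw [ray_smul hb, hc n (by rwa [deg_smul] at hγ)]
  · have h' : ∀ n : ℕ, γ ≠ n • b := fun n hn => h ⟨n, hn⟩
    rw [ray_of_not hb _ h']
    by_contra h0
    exact h (hsupp γ h0)

theorem exists_units_aux (h : RankTwo B Λ) {c : Fin r →₀ ℕ} (hc : toZ c ∈ Λ) (hc0 : c ≠ 0)
    (D : ℕ) : ∀ (k : ℕ) (τ : ℚ) (F : QSeries B), (upBox B Λ c D τ).card ≤ k → F 0 = 1 →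
      F ∈ supp (B := B) (upSub B Λ c τ) →
      (∀ b, Prim b → b ∈ upSub B Λ c τ → ∀ gp g0 gm, IsTriple F gp g0 gm (chartAt B 0 b) →
        PosRay D b g0) →
      ∃ L, IsUnits B (upSub B Λ c τ) L ∧ EqD D F (L.map (unitQ B)).prod := by
  intro k
  induction k with
  | zero =>
    intro τ F hk h0 hF _
    refine ⟨[], ⟨by simp, by simp, List.Pairwise.nil⟩, ?_⟩
    intro γ hγ
    rw [List.map_nil, List.prod_nil, one_apply]
    by_cases h1 : γ = 0
    · rw [if_pos h1, h1, h0]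
    · rw [if_neg h1]
      by_contra h2
      have h3 := (mem_upSub.1 (hF γ h2)).resolve_left h1
      have : γ ∈ upBox B Λ c D τ := mem_upBox.2 ⟨hγ, h1, h3.1, (lt_slp h1 τ).2 h3.2⟩
      rw [Nat.le_zero, Finset.card_eq_zero] at hk
      rw [hk] at this
      exact absurd this (Finset.notMem_empty _)
  | succ k ih =>
    intro τ F hk h0 hF hpos
    by_cases hne : (upBox B Λ c D τ).Nonempty
    swap
    · refine ih τ F ?_ h0 hF hpos
      rw [Finset.not_nonempty_iff_eq_empty] at hne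
      rw [hne]
      simp
    obtain ⟨γ0, hγ0, hmin⟩ := Finset.exists_min_image _ (slp B c) hne
    obtain ⟨hD0, hn0, hΛ0, hτ0⟩ := mem_upBox.1 hγ0
    obtain ⟨b, m, hbp, hm, hmb⟩ := exists_prim hn0
    have hb0 : b ≠ 0 := hbp.ne_zero
    have hbΛ : toZ b ∈ Λ := by
      refine h.sat (toZ b) m (by exact_mod_cast hm.ne') ?_
      rw [← toZ_smul, hmb]
      exact hΛ0
    have hsb : slp B c b = slp B c γ0 := by rw [← hmb, slp_smul c b hm]
    have hτb : τ < slp B c b := hsb ▸ hτ0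
    have hbup : b ∈ upSub B Λ c τ := mem_upSub.2 (Or.inr ⟨hbΛ, (lt_slp hb0 τ).1 hτb⟩)
    have hbD : deg b ≤ D := by
      rw [← hmb, deg_smul] at hD0
      nlinarith [Nat.zero_le (deg b)]
    have hbbox : b ∈ upBox B Λ c D τ := mem_upBox.2 ⟨hbD, hb0, hbΛ, hτb⟩
    obtain ⟨gp, g0, gm, ht⟩ := exists_triple h0 (chartAt B 0 b)
    obtain ⟨sp, s0, sm⟩ := triple_mem_supp ht hF
    -- the part before `b`
    have e1 : EqD D gp 1 := by
      intro γ hγ
      rw [one_apply]
      by_cases h1 : γ = 0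
      · rw [if_pos h1, h1, ht.gp_zero]
      · rw [if_neg h1]
        by_contra h2
        have h3 := (mem_upSub.1 (sp γ h2)).resolve_left h1
        have h4 := ht.gp_supp γ h1 h2
        rw [wt_chart] at h4
        have h5 := (slp_lt_iff h h3.1 hbΛ hc h1 hb0 hc0).2 h4
        have h6 := hmin γ (mem_upBox.2 ⟨hγ, h1, h3.1, (lt_slp h1 τ).2 h3.2⟩)
        rw [← hsb] at h6
        linarith
    -- the ray of `b`
    have hray : ∀ γ, g0 γ ≠ 0 → ∃ k : ℕ, γ = k • b := by
      intro γ hγ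
      have h1 := ht.g0_supp γ hγ
      rw [wt_chart] at h1
      exact h.mem_ray hbp hbΛ (toZ_mem_of_upSub (s0 γ hγ)) h1
    obtain ⟨l, hl, e2⟩ := posRay_units h.skew hb0 (hpos b hbp hbup gp g0 gm ht) hray
    -- the rest
    have hsm : gm ∈ supp (B := B) (upSub B Λ c (slp B c b)) := by
      intro γ hγ
      by_cases h1 : γ = 0
      · exact Or.inl h1
      · have h2 := gm_mem ht γ hγ
        have h3 := toZ_mem_of_upSub (sm γ hγ)
        have h4 := ht.gm_supp γ h1 hγ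
        rw [wt_chart] at h4
        have h5 : 0 < omega B (toZ b) (toZ γ) := by
          rw [omega_swap h.skew (toZ b) (toZ γ)]
          omega
        exact Or.inr ⟨h3, (lt_slp h1 _).1 ((slp_lt_iff h hbΛ h3 hc hb0 h1 hc0).2 h5)⟩
    have hle : ∀ γ : Fin r →₀ ℕ, γ ∈ upSub B Λ c (slp B c b) → γ ∈ upSub B Λ c τ := by
      intro γ hγ
      by_cases h1 : γ = 0
      · exact Or.inl h1
      · have h2 := (mem_upSub.1 hγ).resolve_left h1
        exact Or.inr ⟨h2.1, (lt_slp h1 _).1 (hτb.trans ((lt_slp h1 _).2 h2.2))⟩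
    have hcard : (upBox B Λ c D (slp B c b)).card ≤ k := by
      have hss : upBox B Λ c D (slp B c b) ⊂ upBox B Λ c D τ := by
        refine Finset.ssubset_iff_subset_ne.2 ⟨?_, ?_⟩
        · intro γ hγ
          obtain ⟨a1, a2, a3, a4⟩ := mem_upBox.1 hγ
          exact mem_upBox.2 ⟨a1, a2, a3, hτb.trans a4⟩
        · intro heq
          rw [← heq] at hbbox
          exact lt_irrefl _ (mem_upBox.1 hbbox).2.2.2
      have := Finset.card_lt_card hss
      omega
    obtain ⟨L', hL', e3⟩ := ih (slp B c b) gm hcard ht.gm_zero hsm (by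
      intro b' hb' hb'up P Z N hT
      have hb'0 := hb'.ne_zero
      have hb'2 := (mem_upSub.1 hb'up).resolve_left hb'0
      have hsb' : slp B c b < slp B c b' := (lt_slp hb'0 _).2 hb'2.2
      refine hpos b' hb' (hle b' hb'up) (gp * g0 * P) Z N ?_
      have hgp : gp ∈ supp (B := B) (posSub (chartAt B 0 b')) := by
        intro γ hγ
        by_cases h1 : γ = 0
        · exact Or.inl h1
        · refine Or.inr ?_
          rw [wt_chart]
          have h3 := toZ_mem_of_upSub (sp γ hγ)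
          have h4 := ht.gp_supp γ h1 hγ
          rw [wt_chart] at h4
          exact (slp_lt_iff h h3 hb'2.1 hc h1 hb'0 hc0).1
            (((slp_lt_iff h h3 hbΛ hc h1 hb0 hc0).2 h4).trans hsb')
      have hg0 : g0 ∈ supp (B := B) (posSub (chartAt B 0 b')) := by
        intro γ hγ
        by_cases h1 : γ = 0
        · exact Or.inl h1
        · refine Or.inr ?_
          rw [wt_chart]
          obtain ⟨j, rfl⟩ := hray γ hγ
          have hj : 0 < j := by
            rw [Nat.pos_iff_ne_zero]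
            rintro rfl
            exact h1 (zero_smul _ _)
          have hbb' : 0 < omega B (toZ b) (toZ b') :=
            (slp_lt_iff h hbΛ hb'2.1 hc hb0 hb'0 hc0).1 hsb'
          rw [toZ_smul, omega_smul_left]
          have : (0 : ℤ) < j := by exact_mod_cast hj
          positivity
      have hprod : gp * g0 * P ∈ supp (B := B) (posSub (chartAt B 0 b')) :=
        mul_mem (mul_mem hgp hg0) (gp_mem hT)
      refine ⟨?_, ?_, hT.g0_zero, hT.g0_supp, hT.gm_zero, hT.gm_supp, ?_⟩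
      · rw [mul_zero_apply, mul_zero_apply, ht.gp_zero, ht.g0_zero, hT.gp_zero, one_mul, one_mul]
      · intro γ h1 hγ
        exact (mem_posSub.1 (hprod γ hγ)).resolve_left h1
      · rw [ht.eq, hT.eq]
        simp only [mul_assoc])
    refine ⟨(l.map fun u => (u.1, u.2.1, u.2.2 • b)) ++ L', ⟨?_, ?_, ?_⟩, ?_⟩
    · intro u hu
      rcases List.mem_append.1 hu with hu | hu
      · obtain ⟨w, hw, rfl⟩ := List.mem_map.1 hu
        have := hl w hw
        intro h0
        have h1 : w.2.2 • b = 0 • b := by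
          rw [zero_smul]
          exact h0
        have := smul_right_inj' hb0 h1
        omega
      · exact hL'.ne_zero u hu
    · intro u hu
      rcases List.mem_append.1 hu with hu | hu
      · obtain ⟨w, hw, rfl⟩ := List.mem_map.1 hu
        exact AddSubmonoid.nsmul_mem _ hbup _
      · exact hle _ (hL'.mem u hu)
    · rw [List.pairwise_append]
      refine ⟨?_, hL'.order, ?_⟩
      · rw [List.pairwise_map]
        exact List.pairwise_of_forall (fun a a' => (omega_smul_smul h.skew _ _ b).ge)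
      · intro u hu u' hu'
        obtain ⟨w, hw, rfl⟩ := List.mem_map.1 hu
        have a0 := hL'.ne_zero u' hu'
        have a1 := (mem_upSub.1 (hL'.mem u' hu')).resolve_left a0
        have a2 : slp B c b < slp B c u'.2.2 := (lt_slp a0 _).2 a1.2
        have a3 := (slp_lt_iff h hbΛ a1.1 hc hb0 a0 hc0).1 a2
        simp only [toZ_smul, omega_smul_left]
        positivity
    · rw [List.map_append, List.prod_append]
      have e4 := (e1.mul e2).mul e3
      rw [one_mul] at e4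
      rw [ht.eq]
      exact e4

/-- The ordered product of units. -/
theorem exists_units (h : RankTwo B Λ) (D : ℕ) (F : QSeries B) (h0 : F 0 = 1)
    (hF : ∀ γ, F γ ≠ 0 → toZ γ ∈ Λ)
    (hpos : ∀ b, Prim b → toZ b ∈ Λ → ∀ gp g0 gm, IsTriple F gp g0 gm (chartAt B 0 b) →
        PosRay D b g0) :
    ∃ L : List (Bool × ℤ × (Fin r →₀ ℕ)), (∀ u ∈ L, u.2.2 ≠ 0) ∧ (∀ u ∈ L, toZ u.2.2 ∈ Λ) ∧
      (L.Pairwise fun u u' => 0 ≤ omega B (toZ u.2.2) (toZ u'.2.2)) ∧
      EqD D F (L.map (unitQ B)).prod := by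
  by_cases hM : ∃ c : Fin r →₀ ℕ, c ≠ 0 ∧ toZ c ∈ Λ
  · obtain ⟨c, hc0, hc⟩ := hM
    -- a lower bound of all slopes
    obtain ⟨τ, hτ⟩ : ∃ τ : ℚ, ∀ γ : Fin r →₀ ℕ, γ ≠ 0 →
        τ * (deg γ : ℚ) < (omega B (toZ c) (toZ γ) : ℚ) := by
      set w : Fin r → ℤ := fun j => ∑ i, toZ c i * B i j with hw
      refine ⟨-((∑ j, |w j| : ℤ) : ℚ) - 1, ?_⟩
      intro γ hγ
      have e : omega B (toZ c) (toZ γ) = ∑ j, w j * (γ j : ℤ) := by
        simp only [omega, hw, sum_mul, toZ]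
        rw [sum_comm]
      have hd : (0 : ℤ) < deg γ := by exact_mod_cast deg_pos hγ
      have e2 : -(∑ j, |w j|) * (deg γ : ℤ) ≤ omega B (toZ c) (toZ γ) := by
        rw [e, neg_mul, sum_mul, ← sum_neg_distrib]
        refine sum_le_sum fun j _ => ?_
        have h1 : (γ j : ℤ) ≤ deg γ := by exact_mod_cast le_deg γ j
        have h2 : (0 : ℤ) ≤ γ j := by positivity
        have h3 := neg_abs_le (w j)
        have h4 := abs_nonneg (w j)
        nlinarith
      have e3 : (-(∑ j, |w j|) - 1) * (deg γ : ℤ) < omega B (toZ c) (toZ γ) := by linarith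
      exact_mod_cast e3
    obtain ⟨L, hL, e⟩ := exists_units_aux h hc hc0 D _ τ F le_rfl h0 (by
      intro γ hγ
      by_cases h1 : γ = 0
      · exact Or.inl h1
      · exact Or.inr ⟨hF γ hγ, hτ γ h1⟩) (by
      intro b hb hbup gp g0 gm ht
      exact hpos b hb (toZ_mem_of_upSub hbup) gp g0 gm ht)
    exact ⟨L, hL.ne_zero, fun u hu => toZ_mem_of_upSub (hL.mem u hu), hL.order, e⟩
  · push Not at hM
    refine ⟨[], by simp, by simp, List.Pairwise.nil, ?_⟩
    intro γ _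
    rw [List.map_nil, List.prod_nil, one_apply]
    by_cases h1 : γ = 0
    · rw [if_pos h1, h1, h0]
    · rw [if_neg h1]
      by_contra h2
      exact hM γ h1 (hF γ h2)

end

end Vale.Agent.P066.Theta.H307
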