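import Vale.Agent.P066.Theta.H307.Trunc

/-!
# Homomorphisms into the quantum torus

The one variable map `ray b : K⟦T⟧ → QSeries B`, `T ↦ x^b`, and the map
`push J c : QSeries A → QSeries B`, `x_s ↦ v^{J s} x^{c s}`, where `A s t = ω(c s, c t)`.
-/

set_option autoImplicit false

open Finset

namespace Vale.Agent.P066.Theta.H307

noncomputable section

open QSeries

variable {r : ℕ} {B : Matrix (Fin r) (Fin r) ℤ}

/-- The combinatorial core of multiplicativity of push forwards. -/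
theorem sum_fib {M N R : Type*} [AddCommMonoid M] [AddCommMonoid N] [HasAntidiagonal M]
    [HasAntidiagonal N] [DecidableEq M] [DecidableEq N] [AddCommMonoid R] (φ : M →+ N)
    (fib : N → Finset M) (hfib : ∀ γ d, d ∈ fib γ ↔ φ d = γ) (T : M → M → R) (γ : N) :
    ∑ d ∈ fib γ, ∑ p ∈ antidiagonal d, T p.1 p.2 =
      ∑ q ∈ antidiagonal γ, ∑ a ∈ fib q.1, ∑ b ∈ fib q.2, T a b := by
  classical
  have e1 : ∑ q ∈ antidiagonal γ, ∑ a ∈ fib q.1, ∑ b ∈ fib q.2, T a b =
      ∑ q ∈ antidiagonal γ, ∑ x ∈ fib q.1 ×ˢ fib q.2, T x.1 x.2 := by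
    refine sum_congr rfl fun q _ => ?_
    rw [sum_product]
  rw [e1, sum_sigma', sum_sigma']
  refine sum_bij' (fun x _ => ⟨(φ x.2.1, φ x.2.2), (x.2.1, x.2.2)⟩)
    (fun y _ => ⟨y.2.1 + y.2.2, (y.2.1, y.2.2)⟩) ?_ ?_ ?_ ?_ ?_
  · rintro ⟨d, p⟩ hx
    simp only [mem_sigma, HasAntidiagonal.mem_antidiagonal, mem_product, hfib] at hx ⊢
    refine ⟨?_, by simp⟩
    rw [← map_add, hx.2, hx.1]
  · rintro ⟨q, x⟩ hx
    simp only [mem_sigma, HasAntidiagonal.mem_antidiagonal, mem_product, hfib] at hx ⊢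
    refine ⟨?_, by simp⟩
    rw [map_add, hx.2.1, hx.2.2, hx.1]
  · rintro ⟨d, p⟩ hx
    simp only [mem_sigma, HasAntidiagonal.mem_antidiagonal, hfib] at hx
    obtain ⟨h1, h2⟩ := hx
    subst h2
    rfl
  · rintro ⟨q, x⟩ hx
    simp only [mem_sigma, HasAntidiagonal.mem_antidiagonal, mem_product, hfib] at hx
    obtain ⟨h1, h2, h3⟩ := hx
    obtain ⟨q1, q2⟩ := q
    simp only at h2 h3
    subst h2 h3
    rfl
  · rintro ⟨d, p⟩ _
    rfl

theorem v_zpow_add (a b : ℤ) : v ^ (a + b) = v ^ a * v ^ b := zpow_add₀ v_ne_zero a b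

/-! ### the ray map -/

/-- The multiples of `b` equal to `γ`. -/
def rayFib (b : Fin r →₀ ℕ) (γ : Fin r →₀ ℕ) : Finset ℕ :=
  (range (deg γ + 1)).filter fun i => i • b = γ

theorem mem_rayFib {b : Fin r →₀ ℕ} (hb : b ≠ 0) (γ : Fin r →₀ ℕ) (i : ℕ) :
    i ∈ rayFib b γ ↔ i • b = γ := by
  unfold rayFib
  rw [mem_filter, mem_range]
  constructor
  · exact fun h => h.2
  · intro h
    refine ⟨?_, h⟩
    rw [← h, deg_smul]
    have := deg_pos hb
    nlinarith

/-- `T ↦ x^b`. -/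
def ray (B : Matrix (Fin r) (Fin r) ℤ) (b : Fin r →₀ ℕ) (f : PowerSeries K) : QSeries B :=
  fun γ => ∑ i ∈ rayFib b γ, PowerSeries.coeff i f

theorem smul_right_inj' {b : Fin r →₀ ℕ} (hb : b ≠ 0) {i j : ℕ} (h : i • b = j • b) : i = j := by
  have e := congrArg deg h
  rw [deg_smul, deg_smul] at e
  exact Nat.eq_of_mul_eq_mul_right (deg_pos hb) e

theorem ray_smul {b : Fin r →₀ ℕ} (hb : b ≠ 0) (f : PowerSeries K) (n : ℕ) :
    ray B b f (n • b) = PowerSeries.coeff n f := by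
  unfold ray
  have : rayFib b (n • b) = {n} := by
    ext i
    rw [mem_rayFib hb, mem_singleton]
    exact ⟨fun h => smul_right_inj' hb h, fun h => h ▸ rfl⟩
  rw [this, sum_singleton]

theorem ray_of_not {b : Fin r →₀ ℕ} (hb : b ≠ 0) (f : PowerSeries K) {γ : Fin r →₀ ℕ}
    (h : ∀ n : ℕ, γ ≠ n • b) : ray B b f γ = 0 := by
  unfold ray
  refine sum_eq_zero fun i hi => ?_
  rw [mem_rayFib hb] at hi
  exact absurd hi.symm (h i)

theorem omega_smul_smul (hB : B.transpose = -B) (i j : ℕ) (b : Fin r →₀ ℕ) :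
    omega B (toZ (i • b)) (toZ (j • b)) = 0 := by
  have h : ∀ (x : Fin r → ℤ) (j : ℕ), omega B x (toZ (j • b)) = j * omega B x (toZ b) := by
    intro x j
    simp only [omega, toZ, mul_sum, Finsupp.smul_apply, smul_eq_mul, Nat.cast_mul]
    refine sum_congr rfl fun i _ => sum_congr rfl fun j _ => ?_
    ring
  have h' : ∀ (x : Fin r → ℤ) (j : ℕ), omega B (toZ (j • b)) x = j * omega B (toZ b) x := by
    intro x j
    simp only [omega, toZ, mul_sum, Finsupp.smul_apply, smul_eq_mul, Nat.cast_mul]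
    refine sum_congr rfl fun i _ => sum_congr rfl fun j _ => ?_
    ring
  rw [h, h', omega_self hB, mul_zero, mul_zero]

theorem ray_one {b : Fin r →₀ ℕ} (hb : b ≠ 0) : ray B b 1 = 1 := by
  ext γ
  by_cases h : ∃ n : ℕ, γ = n • b
  · obtain ⟨n, rfl⟩ := h
    rw [ray_smul hb, PowerSeries.coeff_one, one_apply]
    by_cases hn : n = 0
    · subst hn
      simp
    · rw [if_neg hn, if_neg]
      intro h0
      apply hn
      refine smul_right_inj' hb (j := 0) ?_
      rw [h0, zero_smul]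
  · have h' : ∀ n : ℕ, γ ≠ n • b := fun n hn => h ⟨n, hn⟩
    rw [ray_of_not hb _ h', one_apply, if_neg]
    intro h0
    exact h' 0 (by rw [h0, zero_smul])

theorem ray_mul (hB : B.transpose = -B) {b : Fin r →₀ ℕ} (hb : b ≠ 0) (f g : PowerSeries K) :
    ray B b (f * g) = ray B b f * ray B b g := by
  ext γ
  rw [mul_apply]
  let φ : ℕ →+ (Fin r →₀ ℕ) :=
    { toFun := fun n => n • b
      map_zero' := zero_smul _ _
      map_add' := fun _ _ => add_smul _ _ _ }
  have key := sum_fib φ (rayFib b) (fun γ d => mem_rayFib hb γ d)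
    (fun i j => PowerSeries.coeff i f * PowerSeries.coeff j g) γ
  have e1 : ray B b (f * g) γ = ∑ d ∈ rayFib b γ, ∑ p ∈ antidiagonal d,
      PowerSeries.coeff p.1 f * PowerSeries.coeff p.2 g := by
    unfold ray
    refine sum_congr rfl fun d _ => ?_
    rw [PowerSeries.coeff_mul]
  rw [e1, key]
  refine sum_congr rfl fun q _ => ?_
  unfold ray
  rw [mul_assoc, sum_mul_sum, mul_sum]
  refine sum_congr rfl fun i hi => ?_
  rw [mul_sum]
  refine sum_congr rfl fun j hj => ?_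
  rw [mem_rayFib hb] at hi hj
  rw [← hi, ← hj, omega_smul_smul hB, zpow_zero, one_mul]

theorem ray_unitSeries {b : Fin r →₀ ℕ} (hb : b ≠ 0) (u : Bool × ℤ × ℕ) (hu : 0 < u.2.2) :
    ray B b (unitSeries u) = unitQ B (u.1, u.2.1, u.2.2 • b) := by
  have hub : u.2.2 • b ≠ 0 := by
    intro h
    have := congrArg deg h
    rw [deg_smul, deg_zero] at this
    have := deg_pos hb
    rcases Nat.mul_eq_zero.1 ‹u.2.2 * deg b = 0› with h | h <;> omega
  ext γ
  have e2 : unitQ B (u.1, u.2.1, u.2.2 • b) γ =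
      ∑ i ∈ rayFib (u.2.2 • b) γ, epsCoeff u.1 i * v ^ (u.2.1 * (i : ℤ)) := by
    unfold unitQ rayFib
    rw [sum_filter]
  rw [e2]
  unfold ray unitSeries
  have e3 : ∀ n : ℕ, PowerSeries.coeff n (PowerSeries.mk fun n =>
      ∑ i ∈ range (n + 1), if i * u.2.2 = n then epsCoeff u.1 i * v ^ (u.2.1 * (i : ℤ)) else 0) =
      ∑ i ∈ (range (n + 1)).filter (fun i => i * u.2.2 = n),
        epsCoeff u.1 i * v ^ (u.2.1 * (i : ℤ)) := by
    intro n
    rw [PowerSeries.coeff_mk, sum_filter]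
  simp only [e3]
  rw [sum_sigma']
  refine sum_bij' (fun x _ => x.2) (fun i _ => ⟨i * u.2.2, i⟩) ?_ ?_ ?_ ?_ ?_
  · rintro ⟨n, i⟩ hx
    simp only [mem_sigma, mem_rayFib hb, mem_filter, mem_range, mem_rayFib hub] at hx ⊢
    rw [smul_smul, hx.2.2, hx.1]
  · intro i hi
    rw [mem_rayFib hub] at hi
    simp only [mem_sigma, mem_rayFib hb, mem_filter, mem_range, and_true]
    refine ⟨by rw [← smul_smul]; exact hi, ?_⟩
    nlinarith
  · rintro ⟨n, i⟩ hx
    simp only [mem_sigma, mem_rayFib hb, mem_filter, mem_range] at hx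
    obtain ⟨-, -, h⟩ := hx
    subst h
    rfl
  · intro i _
    rfl
  · rintro ⟨n, i⟩ _
    rfl

theorem ray_list (hB : B.transpose = -B) {b : Fin r →₀ ℕ} (hb : b ≠ 0)
    (l : List (Bool × ℤ × ℕ)) (hl : ∀ u ∈ l, 0 < u.2.2) :
    ray B b (l.map unitSeries).prod =
      ((l.map fun u => (u.1, u.2.1, u.2.2 • b)).map (unitQ B)).prod := by
  induction l with
  | nil => simp [ray_one hb]
  | cons u l ih =>
    rw [List.map_cons, List.map_cons, List.map_cons, List.prod_cons, List.prod_cons,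
      ray_mul hB hb, ih fun w hw => hl w (List.mem_cons_of_mem _ hw),
      ray_unitSeries hb u (hl u List.mem_cons_self)]

/-! ### the push forward -/

variable {n : ℕ}

/-- `d ↦ ∑ d_s c_s`. -/
def pmap (c : Fin n → Fin r →₀ ℕ) : (Fin n →₀ ℕ) →+ (Fin r →₀ ℕ) where
  toFun d := ∑ s, d s • c s
  map_zero' := by simp
  map_add' := by
    intro a b
    simp [add_smul, sum_add_distrib]

theorem pmap_apply (c : Fin n → Fin r →₀ ℕ) (d : Fin n →₀ ℕ) : pmap c d = ∑ s, d s • c s := rfl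

theorem pmap_single (c : Fin n → Fin r →₀ ℕ) (s : Fin n) (m : ℕ) :
    pmap c (Finsupp.single s m) = m • c s := by
  rw [pmap_apply, Finset.sum_eq_single s]
  · simp
  · intro t _ ht
    simp [ht.symm]
  · intro h
    exact absurd (mem_univ s) h

theorem deg_sum {ι : Type*} (S : Finset ι) (f : ι → Fin r →₀ ℕ) :
    deg (∑ i ∈ S, f i) = ∑ i ∈ S, deg (f i) := by
  classical
  induction S using Finset.induction_on with
  | empty => simp
  | insert a S ha ih => rw [sum_insert ha, sum_insert ha, deg_add, ih]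

theorem deg_le_pmap {c : Fin n → Fin r →₀ ℕ} (hc : ∀ s, c s ≠ 0) (d : Fin n →₀ ℕ) :
    deg d ≤ deg (pmap c d) := by
  rw [pmap_apply, deg_sum]
  unfold deg
  refine sum_le_sum fun s _ => ?_
  have h1 := deg_smul (d s) (c s)
  have h2 := deg_pos (hc s)
  unfold deg at h1 h2
  rw [h1]
  nlinarith [Nat.zero_le (d s)]

/-- The vectors `d` with `∑ d_s c_s = γ`. -/
def pfib (c : Fin n → Fin r →₀ ℕ) (γ : Fin r →₀ ℕ) : Finset (Fin n →₀ ℕ) :=
  (Finset.Iic (Finsupp.equivFunOnFinite.symm fun _ => deg γ)).filter fun d => pmap c d = γ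

theorem mem_pfib {c : Fin n → Fin r →₀ ℕ} (hc : ∀ s, c s ≠ 0) (γ : Fin r →₀ ℕ) (d : Fin n →₀ ℕ) :
    d ∈ pfib c γ ↔ pmap c d = γ := by
  unfold pfib
  rw [mem_filter, Finset.mem_Iic]
  constructor
  · exact fun h => h.2
  · intro h
    refine ⟨fun s => ?_, h⟩
    simp only [Finsupp.equivFunOnFinite_symm_apply_apply]
    rw [← h]
    exact (le_deg d s).trans (deg_le_pmap hc d)

/-- The matrix of the pulled back form. -/
def pullB (B : Matrix (Fin r) (Fin r) ℤ) (c : Fin n → Fin r →₀ ℕ) : Matrix (Fin n) (Fin n) ℤ :=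
  fun s t => omega B (toZ (c s)) (toZ (c t))

theorem omega_sum_left (x : Fin r → ℤ) {ι : Type*} (S : Finset ι) (f : ι → Fin r → ℤ) :
    omega B (∑ i ∈ S, f i) x = ∑ i ∈ S, omega B (f i) x := by
  classical
  induction S using Finset.induction_on with
  | empty => simp
  | insert a S ha ih => rw [sum_insert ha, sum_insert ha, omega_add_left, ih]

theorem omega_sum_right (x : Fin r → ℤ) {ι : Type*} (S : Finset ι) (f : ι → Fin r → ℤ) :
    omega B x (∑ i ∈ S, f i) = ∑ i ∈ S, omega B x (f i) := by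
  classical
  induction S using Finset.induction_on with
  | empty => simp
  | insert a S ha ih => rw [sum_insert ha, sum_insert ha, omega_add_right, ih]

theorem omega_smul_left (k : ℤ) (x y : Fin r → ℤ) : omega B (k • x) y = k * omega B x y := by
  simp only [omega, mul_sum, Pi.smul_apply, smul_eq_mul]
  refine sum_congr rfl fun i _ => sum_congr rfl fun j _ => ?_
  ring

theorem omega_smul_right (k : ℤ) (x y : Fin r → ℤ) : omega B x (k • y) = k * omega B x y := by
  simp only [omega, mul_sum, Pi.smul_apply, smul_eq_mul]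
  refine sum_congr rfl fun i _ => sum_congr rfl fun j _ => ?_
  ring

theorem toZ_sum {ι : Type*} (S : Finset ι) (f : ι → Fin r →₀ ℕ) :
    toZ (∑ i ∈ S, f i) = ∑ i ∈ S, toZ (f i) := by
  classical
  induction S using Finset.induction_on with
  | empty => simp
  | insert a S ha ih => rw [sum_insert ha, sum_insert ha, toZ_add, ih]

theorem toZ_pmap (c : Fin n → Fin r →₀ ℕ) (d : Fin n →₀ ℕ) :
    toZ (pmap c d) = ∑ s, (d s : ℤ) • toZ (c s) := by
  rw [pmap_apply, toZ_sum]
  exact sum_congr rfl fun s _ => toZ_smul _ _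

theorem omega_pmap (c : Fin n → Fin r →₀ ℕ) (a b : Fin n →₀ ℕ) :
    omega B (toZ (pmap c a)) (toZ (pmap c b)) = omega (pullB B c) (toZ a) (toZ b) := by
  rw [toZ_pmap, toZ_pmap, omega_sum_left]
  unfold pullB
  rw [omega.eq_def (fun s t => omega B (toZ (c s)) (toZ (c t)))]
  refine sum_congr rfl fun s _ => ?_
  rw [omega_sum_right]
  refine sum_congr rfl fun t _ => ?_
  rw [omega_smul_left, omega_smul_right]
  simp only [toZ]
  ring

theorem pullB_skew (hB : B.transpose = -B) (c : Fin n → Fin r →₀ ℕ) :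
    (pullB B c).transpose = -pullB B c := by
  ext s t
  simp only [Matrix.transpose_apply, Matrix.neg_apply, pullB]
  exact omega_swap hB _ _

/-- `x_s ↦ v^{J s} x^{c s}`. -/
def push (B : Matrix (Fin r) (Fin r) ℤ) (J : Fin n → ℤ) (c : Fin n → Fin r →₀ ℕ)
    (F : QSeries (pullB B c)) : QSeries B :=
  fun γ => ∑ d ∈ pfib c γ, v ^ wt J d * F d

theorem push_one (J : Fin n → ℤ) {c : Fin n → Fin r →₀ ℕ} (hc : ∀ s, c s ≠ 0) :
    push B J c 1 = 1 := by
  ext γ
  unfold push
  rw [one_apply]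
  by_cases h : γ = 0
  · subst h
    rw [if_pos rfl]
    have : pfib c 0 = {0} := by
      ext d
      rw [mem_pfib hc, mem_singleton]
      constructor
      · intro h
        have := deg_le_pmap hc d
        rw [h, deg_zero] at this
        exact deg_eq_zero.1 (by omega)
      · rintro rfl
        exact map_zero _
    rw [this, sum_singleton]
    simp
  · rw [if_neg h]
    refine sum_eq_zero fun d hd => ?_
    rw [mem_pfib hc] at hd
    rw [one_apply, if_neg, mul_zero]
    rintro rfl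
    exact h (by rw [← hd, map_zero])

theorem push_mul (J : Fin n → ℤ) {c : Fin n → Fin r →₀ ℕ} (hc : ∀ s, c s ≠ 0)
    (F G : QSeries (pullB B c)) : push B J c (F * G) = push B J c F * push B J c G := by
  ext γ
  rw [mul_apply]
  have key := sum_fib (pmap c) (pfib c) (fun γ d => mem_pfib hc γ d)
    (fun a b => v ^ omega (pullB B c) (toZ a) (toZ b) * (v ^ wt J a * F a) * (v ^ wt J b * G b)) γ
  have e1 : push B J c (F * G) γ = ∑ d ∈ pfib c γ, ∑ p ∈ antidiagonal d,
      v ^ omega (pullB B c) (toZ p.1) (toZ p.2) * (v ^ wt J p.1 * F p.1) *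
        (v ^ wt J p.2 * G p.2) := by
    unfold push
    refine sum_congr rfl fun d _ => ?_
    rw [mul_apply, mul_sum]
    refine sum_congr rfl fun p hp => ?_
    rw [HasAntidiagonal.mem_antidiagonal] at hp
    rw [← hp, wt_add, v_zpow_add]
    ring
  rw [e1, key]
  refine sum_congr rfl fun q _ => ?_
  unfold push
  rw [mul_assoc, sum_mul_sum, mul_sum]
  refine sum_congr rfl fun a ha => ?_
  rw [mul_sum]
  refine sum_congr rfl fun b hb => ?_
  rw [mem_pfib hc] at ha hb
  rw [← ha, ← hb, omega_pmap]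
  ring

theorem push_unitQ (J : Fin n → ℤ) {c : Fin n → Fin r →₀ ℕ} (hc : ∀ s, c s ≠ 0)
    (u : Bool × ℤ × (Fin n →₀ ℕ)) (hu : u.2.2 ≠ 0) :
    push B J c (unitQ (pullB B c) u) = unitQ B (u.1, u.2.1 + wt J u.2.2, pmap c u.2.2) := by
  have hpu : pmap c u.2.2 ≠ 0 := by
    intro h
    have := deg_le_pmap hc u.2.2
    rw [h, deg_zero] at this
    exact hu (deg_eq_zero.1 (by omega))
  ext γ
  have e2 : unitQ B (u.1, u.2.1 + wt J u.2.2, pmap c u.2.2) γ =
      ∑ i ∈ rayFib (pmap c u.2.2) γ, epsCoeff u.1 i * v ^ ((u.2.1 + wt J u.2.2) * (i : ℤ)) := by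
    unfold unitQ rayFib
    rw [sum_filter]
  have e3 : ∀ d : Fin n →₀ ℕ, unitQ (pullB B c) u d =
      ∑ i ∈ rayFib u.2.2 d, epsCoeff u.1 i * v ^ (u.2.1 * (i : ℤ)) := by
    intro d
    unfold unitQ rayFib
    rw [sum_filter]
  rw [e2]
  unfold push
  simp only [e3, mul_sum]
  rw [sum_sigma']
  refine sum_bij' (fun x _ => x.2) (fun i _ => ⟨i • u.2.2, i⟩) ?_ ?_ ?_ ?_ ?_
  · rintro ⟨d, i⟩ hx
    simp only [mem_sigma, mem_pfib hc, mem_rayFib hu, mem_rayFib hpu] at hx ⊢
    rw [← hx.1, ← hx.2, map_nsmul]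
  · intro i hi
    rw [mem_rayFib hpu] at hi
    simp only [mem_sigma, mem_pfib hc, mem_rayFib hu, and_true]
    rw [map_nsmul, hi]
  · rintro ⟨d, i⟩ hx
    simp only [mem_sigma, mem_rayFib hu] at hx
    obtain ⟨-, h⟩ := hx
    subst h
    rfl
  · intro i _
    rfl
  · rintro ⟨d, i⟩ hx
    simp only [mem_sigma, mem_rayFib hu] at hx
    obtain ⟨-, h⟩ := hx
    simp only
    rw [← h, wt_smul]
    have : (u.2.1 + wt J u.2.2) * (i : ℤ) = (i : ℤ) * wt J u.2.2 + u.2.1 * (i : ℤ) := by ring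
    rw [this, v_zpow_add]
    ring

end

end Vale.Agent.P066.Theta.H307
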