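import Vale.Agent.P066.Theta.Uncond
import Vale.Agent.P066.Theta.H615.Fact

/-!
# The quiver theorem: the interface between the local theorem and the theory of quiver
representations

`unitQ B (e, j, γ)` is the series `E_e(v^j x^γ)` of the quantum torus.
`QuiverThm`: for a quiver whose vertices are ordered so that `ω(s, t) ≥ 0` for `s < t`, with `0` or
`1` loops at each vertex (type `e s`), and a stability `θ` which is generic in the sense that `ω`
vanishes on `{θ = 0}`: the `θ = 0` part of the ordered product of the units of the vertices is,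
up to every degree, a finite product of units.
-/

set_option autoImplicit false

open Finset

namespace Vale.Agent.P066.Theta.H307

noncomputable section

variable {r : ℕ}

/-- The series `E_e(v^j x^γ)` of the quantum torus (for `γ ≠ 0`). -/
def unitQ (B : Matrix (Fin r) (Fin r) ℤ) (u : Bool × ℤ × (Fin r →₀ ℕ)) : QSeries B :=
  fun γ => ∑ i ∈ range (deg γ + 1),
    if i • u.2.2 = γ then epsCoeff u.1 i * v ^ (u.2.1 * (i : ℤ)) else 0

/-- The theorem on quivers (without potential) which gives the local theorem. -/
def QuiverThm : Prop :=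
  ∀ (n : ℕ) (A : Matrix (Fin n) (Fin n) ℤ), A.transpose = -A → (∀ s t, s < t → 0 ≤ A s t) →
    ∀ (e : Fin n → Bool) (θ : Fin n → ℤ),
      (∀ d d' : Fin n →₀ ℕ, wt θ d = 0 → wt θ d' = 0 → omega A (toZ d) (toZ d') = 0) →
      ∀ (D : ℕ) (gp g0 gm : QSeries A),
        IsTriple (List.ofFn fun s => unitQ A (e s, 0, Finsupp.single s 1)).prod gp g0 gm θ →
        ∃ L : List (Bool × ℤ × (Fin n →₀ ℕ)), (∀ u ∈ L, u.2.2 ≠ 0 ∧ wt θ u.2.2 = 0) ∧
          ∀ γ, deg γ ≤ D → g0 γ = (L.map (unitQ A)).prod γ

end

end Vale.Agent.P066.Theta.H307
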