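import Vale.Agent.P066.Theta.H307.Push

/-!
# Rank two lattices
-/

set_option autoImplicit false

open Finset

namespace Vale.Agent.P066.Theta.H307

noncomputable section

open QSeries

variable {r : ℕ}

/-- The data of the local theorem. -/
structure RankTwo (B : Matrix (Fin r) (Fin r) ℤ) (Λ : AddSubgroup (Fin r → ℤ)) : Prop where
  skew : B.transpose = -B
  dep : ∀ x ∈ Λ, ∀ y ∈ Λ, ∀ z ∈ Λ, ∃ a b c : ℤ, (a ≠ 0 ∨ b ≠ 0 ∨ c ≠ 0) ∧
        a • x + b • y + c • z = 0
  sat : ∀ (x : Fin r → ℤ) (n : ℤ), n ≠ 0 → n • x ∈ Λ → x ∈ Λ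
  nondeg : ∃ x ∈ Λ, ∃ y ∈ Λ, omega B x y ≠ 0

/-- Primitive vectors. -/
def Prim (b : Fin r →₀ ℕ) : Prop := ∀ (n : ℕ) (c : Fin r →₀ ℕ), n • c = b → n = 1

theorem Prim.ne_zero {b : Fin r →₀ ℕ} (h : Prim b) : b ≠ 0 := by
  rintro rfl
  have := h 0 0 (by simp)
  omega

theorem Prim.gcd_eq_one {b : Fin r →₀ ℕ} (h : Prim b) : (univ : Finset (Fin r)).gcd b = 1 := by
  set g := (univ : Finset (Fin r)).gcd b with hg
  refine h g (Finsupp.equivFunOnFinite.symm fun i => b i / g) ?_
  ext i
  simp only [Finsupp.smul_apply, Finsupp.equivFunOnFinite_symm_apply_apply, smul_eq_mul]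
  exact Nat.mul_div_cancel' (Finset.gcd_dvd (mem_univ i))

theorem exists_prim {γ : Fin r →₀ ℕ} (h : γ ≠ 0) :
    ∃ (b : Fin r →₀ ℕ) (m : ℕ), Prim b ∧ 0 < m ∧ m • b = γ := by
  set g := (univ : Finset (Fin r)).gcd γ with hg
  have hg0 : 0 < g := by
    rw [Nat.pos_iff_ne_zero]
    intro h0
    rw [hg, Finset.gcd_eq_zero_iff] at h0
    apply h
    ext i
    exact h0 i (mem_univ i)
  set b : Fin r →₀ ℕ := Finsupp.equivFunOnFinite.symm fun i => γ i / g with hb
  have e : g • b = γ := by
    ext i
    simp only [hb, Finsupp.smul_apply, Finsupp.equivFunOnFinite_symm_apply_apply, smul_eq_mul]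
    exact Nat.mul_div_cancel' (Finset.gcd_dvd (mem_univ i))
  refine ⟨b, g, ?_, hg0, e⟩
  intro n c hc
  have hd : g * n ∣ g := by
    rw [hg]
    refine Finset.dvd_gcd fun i _ => ?_
    rw [← hg]
    have : γ i = g * (n * c i) := by
      rw [← e, ← hc]
      simp
    rw [this, ← mul_assoc]
    exact dvd_mul_right _ _
  have := Nat.le_of_dvd hg0 hd
  have hn : n ≠ 0 := by
    rintro rfl
    rw [zero_smul] at hc
    rw [← hc, smul_zero] at e
    exact h e.symm
  have h1 : 1 ≤ n := Nat.one_le_iff_ne_zero.2 hn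
  nlinarith

variable {B : Matrix (Fin r) (Fin r) ℤ} {Λ : AddSubgroup (Fin r → ℤ)}

theorem RankTwo.plucker (h : RankTwo B Λ) {x y z : Fin r → ℤ} (hx : x ∈ Λ) (hy : y ∈ Λ)
    (hz : z ∈ Λ) : omega B x y • z + omega B y z • x + omega B z x • y = 0 := by
  obtain ⟨a, b, c, hne, hr⟩ := h.dep x hx y hy z hz
  have ex := congrArg (fun w => omega B w x) hr
  have ey := congrArg (fun w => omega B w y) hr
  have ez := congrArg (fun w => omega B w z) hr
  simp only [omega_add_left, omega_smul_left, omega_self h.skew, omega_zero_left] at ex ey ez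
  have sxy := omega_swap h.skew x y
  have syz := omega_swap h.skew y z
  have szx := omega_swap h.skew z x
  have key : ∀ k : ℤ, k ≠ 0 →
      k • (omega B x y • z + omega B y z • x + omega B z x • y) = 0 →
      omega B x y • z + omega B y z • x + omega B z x • y = 0 := by
    intro k hk h0
    rcases smul_eq_zero.1 h0 with h0 | h0
    · exact absurd h0 hk
    · exact h0
  have hr' : ∀ i, a * x i + b * y i + c * z i = 0 := by
    intro i
    have := congrFun hr i
    simpa using this
  rcases hne with ha | hb | hc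
  · refine key a ha ?_
    ext i
    simp only [Pi.smul_apply, Pi.add_apply, Pi.zero_apply, smul_eq_mul]
    have e1 : a * omega B x y = c * omega B y z := by linear_combination ey - c * syz
    have e2 : a * omega B z x = b * omega B y z := by linear_combination -ez + a * szx
    have := hr' i
    linear_combination (z i) * e1 + (y i) * e2 + omega B y z * this
  · refine key b hb ?_
    ext i
    simp only [Pi.smul_apply, Pi.add_apply, Pi.zero_apply, smul_eq_mul]
    have e1 : b * omega B x y = c * omega B z x := by linear_combination -ex + b * sxy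
    have e2 : b * omega B y z = a * omega B z x := by linear_combination ez - a * szx
    have := hr' i
    linear_combination (z i) * e1 + (x i) * e2 + omega B z x * this
  · refine key c hc ?_
    ext i
    simp only [Pi.smul_apply, Pi.add_apply, Pi.zero_apply, smul_eq_mul]
    have e1 : c * omega B y z = a * omega B x y := by linear_combination -ey + c * syz
    have e2 : c * omega B z x = b * omega B x y := by linear_combination ex - b * sxy
    have := hr' i
    linear_combination (x i) * e1 + (y i) * e2 + omega B x y * this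

/-- The plane spanned by two vectors with nonzero pairing. -/
theorem RankTwo.mem_ray (h : RankTwo B Λ) {b γ : Fin r →₀ ℕ} (hb : Prim b) (hbΛ : toZ b ∈ Λ)
    (hγ : toZ γ ∈ Λ) (h0 : omega B (toZ γ) (toZ b) = 0) : ∃ k : ℕ, γ = k • b := by
  -- a vector with nonzero pairing with `b`
  obtain ⟨c, hc, hbc⟩ : ∃ c ∈ Λ, omega B (toZ b) c ≠ 0 := by
    by_contra hcon
    push Not at hcon
    obtain ⟨x, hx, y, hy, hxy⟩ := h.nondeg
    have := h.plucker hx hy hbΛ
    rw [hcon x hx, omega_swap h.skew y (toZ b), hcon y hy] at this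
    simp only [zero_smul, neg_zero, add_zero] at this
    rcases smul_eq_zero.1 this with h1 | h1
    · exact hxy h1
    · apply hb.ne_zero
      apply toZ_injective
      rw [h1, toZ_zero]
  have e := h.plucker hγ hbΛ hc
  rw [h0, zero_smul, zero_add] at e
  set n := omega B (toZ b) c with hn
  set m := omega B c (toZ γ) with hm
  have hi : ∀ i, n * (γ i : ℤ) = -m * (b i : ℤ) := by
    intro i
    have := congrFun e i
    simp only [Pi.add_apply, Pi.smul_apply, smul_eq_mul, Pi.zero_apply, toZ] at this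
    linear_combination this
  -- `n ∣ m`
  have hdvd : n.natAbs ∣ m.natAbs := by
    have h1 : n.natAbs ∣ (univ : Finset (Fin r)).gcd fun i => m.natAbs * b i := by
      refine Finset.dvd_gcd fun i _ => ?_
      have h2 := congrArg Int.natAbs (hi i)
      rw [Int.natAbs_mul, Int.natAbs_mul, Int.natAbs_neg, Int.natAbs_natCast,
        Int.natAbs_natCast] at h2
      exact ⟨γ i, h2.symm⟩
    rw [Finset.gcd_mul_left, hb.gcd_eq_one] at h1
    simpa using h1
  obtain ⟨k, hk⟩ := hdvd
  refine ⟨k, ?_⟩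
  have hn0 : 0 < n.natAbs := Int.natAbs_pos.2 hbc
  ext i
  have h2 := congrArg Int.natAbs (hi i)
  rw [Int.natAbs_mul, Int.natAbs_mul, Int.natAbs_neg, Int.natAbs_natCast,
    Int.natAbs_natCast, hk, mul_assoc] at h2
  rw [Finsupp.smul_apply, smul_eq_mul]
  exact Nat.eq_of_mul_eq_mul_left hn0 h2

/-- `ω(a, b) deg c = deg a ω(c, b) - deg b ω(c, a)`. -/
theorem RankTwo.slope (h : RankTwo B Λ) {a b c : Fin r →₀ ℕ} (ha : toZ a ∈ Λ) (hb : toZ b ∈ Λ)
    (hc : toZ c ∈ Λ) :
    omega B (toZ a) (toZ b) * deg c =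
      deg a * omega B (toZ c) (toZ b) - deg b * omega B (toZ c) (toZ a) := by
  have e := h.plucker ha hb hc
  have e2 : ∑ i, (omega B (toZ a) (toZ b) • toZ c + omega B (toZ b) (toZ c) • toZ a +
      omega B (toZ c) (toZ a) • toZ b) i = 0 := by
    rw [e]
    simp
  have hd : ∀ x : Fin r →₀ ℕ, ∑ i, toZ x i = (deg x : ℤ) := by
    intro x
    simp [toZ, deg]
  simp only [Pi.add_apply, Pi.smul_apply, smul_eq_mul, sum_add_distrib, ← mul_sum, hd] at e2
  rw [omega_swap h.skew (toZ b) (toZ c)] at e2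
  linear_combination e2

/-- Transitivity of the order of the rays. -/
theorem RankTwo.trans (h : RankTwo B Λ) {a b c : Fin r →₀ ℕ} (ha : toZ a ∈ Λ) (hb : toZ b ∈ Λ)
    (hc : toZ c ∈ Λ) (ha0 : a ≠ 0) (hb0 : b ≠ 0) (h1 : 0 ≤ omega B (toZ a) (toZ b))
    (h2 : 0 < omega B (toZ b) (toZ c)) : 0 < omega B (toZ a) (toZ c) := by
  have e := h.slope ha hc hb
  have hbd : (0 : ℤ) < deg b := by exact_mod_cast deg_pos hb0
  have had : (0 : ℤ) < deg a := by exact_mod_cast deg_pos ha0
  have hcd : (0 : ℤ) ≤ deg c := by positivity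
  rw [omega_swap h.skew (toZ b) (toZ a)] at e
  have : 0 < omega B (toZ a) (toZ c) * deg b := by
    rw [e]
    nlinarith [mul_pos had h2, mul_nonneg hcd h1]
  by_contra hcon
  push Not at hcon
  nlinarith

end

end Vale.Agent.P066.Theta.H307
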