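import Vale.Agent.P066.Theta.H307.Quiver

/-!
# Truncated identities and triples
-/

set_option autoImplicit false

open Finset

namespace Vale.Agent.P066.Theta.H307

noncomputable section

open QSeries

variable {r : ℕ} {B : Matrix (Fin r) (Fin r) ℤ}

/-! ### degrees -/

theorem deg_add (a b : Fin r →₀ ℕ) : deg (a + b) = deg a + deg b := by
  simp [deg, sum_add_distrib]

@[simp] theorem deg_zero : deg (0 : Fin r →₀ ℕ) = 0 := by
  simp [deg]

theorem deg_smul (n : ℕ) (a : Fin r →₀ ℕ) : deg (n • a) = n * deg a := by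
  simp [deg, mul_sum]

theorem deg_mono {a b : Fin r →₀ ℕ} (h : a ≤ b) : deg a ≤ deg b :=
  sum_le_sum fun i _ => h i

theorem le_deg (a : Fin r →₀ ℕ) (i : Fin r) : a i ≤ deg a :=
  single_le_sum (f := fun i => a i) (fun _ _ => Nat.zero_le _) (mem_univ i)

theorem deg_eq_zero {a : Fin r →₀ ℕ} : deg a = 0 ↔ a = 0 := by
  constructor
  · intro h
    ext i
    have := le_deg a i
    simp only [Finsupp.coe_zero, Pi.zero_apply]
    omega
  · rintro rfl
    simp

theorem deg_pos {a : Fin r →₀ ℕ} (h : a ≠ 0) : 0 < deg a :=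
  Nat.pos_of_ne_zero fun h' => h (deg_eq_zero.1 h')

theorem wt_smul (Q : Fin r → ℤ) (n : ℕ) (a : Fin r →₀ ℕ) : wt Q (n • a) = n * wt Q a := by
  simp [wt, mul_sum, mul_assoc]

theorem wt_neg (Q : Fin r → ℤ) (a : Fin r →₀ ℕ) : wt (-Q) a = -wt Q a := by
  simp [wt]

theorem toZ_smul (n : ℕ) (a : Fin r →₀ ℕ) : toZ (n • a) = (n : ℤ) • toZ a := by
  ext i
  simp [toZ]

theorem toZ_injective : Function.Injective (toZ : (Fin r →₀ ℕ) → Fin r → ℤ) := by
  intro a b h
  ext i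
  have := congrFun h i
  simp only [toZ] at this
  exact_mod_cast this

/-- The wall form `ω(·, b)`. -/
theorem wt_chart (b γ : Fin r →₀ ℕ) : wt (chartAt B 0 b) γ = omega B (toZ γ) (toZ b) := by
  simp only [wt, chartAt, omega, toZ, Pi.zero_apply, zero_add, mul_sum, mul_assoc]

/-! ### truncated equality -/

/-- Agreement up to degree `D`. -/
def EqD (D : ℕ) (F G : QSeries B) : Prop := ∀ γ, deg γ ≤ D → F γ = G γ

theorem EqD.refl (D : ℕ) (F : QSeries B) : EqD D F F := fun _ _ => rfl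

theorem EqD.symm {D : ℕ} {F G : QSeries B} (h : EqD D F G) : EqD D G F :=
  fun γ hγ => (h γ hγ).symm

theorem EqD.trans {D : ℕ} {F G H : QSeries B} (h : EqD D F G) (h' : EqD D G H) : EqD D F H :=
  fun γ hγ => (h γ hγ).trans (h' γ hγ)

theorem EqD.mul {D : ℕ} {F F' G G' : QSeries B} (h : EqD D F F') (h' : EqD D G G') :
    EqD D (F * G) (F' * G') := by
  intro γ hγ
  rw [mul_apply, mul_apply]
  refine sum_congr rfl fun p hp => ?_
  rw [HasAntidiagonal.mem_antidiagonal] at hp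
  have h1 : deg p.1 ≤ D := by
    rw [← hp, deg_add] at hγ
    omega
  have h2 : deg p.2 ≤ D := by
    rw [← hp, deg_add] at hγ
    omega
  rw [h p.1 h1, h' p.2 h2]

/-! ### supports of factors -/

/-- `{γ | Q(γ) = 0}`. -/
def zeroSub (Q : Fin r → ℤ) : AddSubmonoid (Fin r →₀ ℕ) where
  carrier := {γ | wt Q γ = 0}
  zero_mem' := by simp
  add_mem' := by
    intro a b ha hb
    simp only [Set.mem_ofPred_eq] at ha hb ⊢
    rw [wt_add, ha, hb, add_zero]

theorem mem_zeroSub {Q : Fin r → ℤ} {γ : Fin r →₀ ℕ} : γ ∈ zeroSub Q ↔ wt Q γ = 0 := Iff.rfl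

/-- Factors of a series supported on a submonoid are supported on this submonoid. -/
theorem factor_mem_supp {P L N : AddSubmonoid (Fin r →₀ ℕ)}
    (hPL : ∀ γ, γ ∈ P → γ ∈ L → γ = 0) {gp gm : QSeries B} (h1 : gp 0 = 1) (h2 : gm 0 = 1)
    (hp : gp ∈ supp (B := B) P) (hm : gm ∈ supp (B := B) L)
    (h : gp * gm ∈ supp (B := B) N) : gp ∈ supp (B := B) N ∧ gm ∈ supp (B := B) N := by
  classical
  suffices H : ∀ γ, γ ∉ N → gp γ = 0 ∧ gm γ = 0 by
    constructor
    · intro γ hγ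
      by_contra hN
      exact hγ (H γ hN).1
    · intro γ hγ
      by_contra hN
      exact hγ (H γ hN).2
  intro γ
  induction γ using WellFoundedLT.induction with
  | ind γ ih =>
    intro hN
    have h0 : γ ≠ 0 := fun h => hN (h ▸ N.zero_mem)
    have e : (gp * gm) γ = 0 := by
      by_contra hc
      exact hN (h γ hc)
    rw [mul_apply_extreme _ _ h0, h1, h2, one_mul, mul_one] at e
    have e2 : ∑ p ∈ (antidiagonal γ).filter (fun p => p.1 ≠ 0 ∧ p.2 ≠ 0),
        v ^ omega B (toZ p.1) (toZ p.2) * gp p.1 * gm p.2 = 0 := by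
      refine sum_eq_zero fun p hpp => ?_
      rw [mem_filter, HasAntidiagonal.mem_antidiagonal] at hpp
      have l1 := lt_of_antidiagonal_fst hpp.1 hpp.2.2
      have l2 := lt_of_antidiagonal_snd hpp.1 hpp.2.1
      by_cases c1 : p.1 ∈ N
      · have c2 : p.2 ∉ N := fun c2 => hN (hpp.1 ▸ N.add_mem c1 c2)
        rw [(ih p.2 l2 c2).2, mul_zero]
      · rw [(ih p.1 l1 c1).1, mul_zero, zero_mul]
    rw [e2] at e
    by_cases hPd : γ ∈ P
    · have a1 : gm γ = 0 := by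
        by_contra hc
        exact h0 (hPL γ hPd (hm γ hc))
      rw [a1, zero_add, add_zero] at e
      exact ⟨e, a1⟩
    · have a1 : gp γ = 0 := by
        by_contra hc
        exact hPd (hp γ hc)
      rw [a1, add_zero, add_zero] at e
      exact ⟨a1, e⟩

section triple

variable {g gp g0 gm : QSeries B} {Q : Fin r → ℤ}

theorem gp_mem (h : IsTriple g gp g0 gm Q) : gp ∈ supp (B := B) (posSub Q) := by
  intro γ hγ
  by_cases h0 : γ = 0
  · exact Or.inl h0
  · exact Or.inr (h.gp_supp γ h0 hγ)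

theorem g0_mem (h : IsTriple g gp g0 gm Q) : g0 ∈ supp (B := B) (zeroSub Q) :=
  fun γ hγ => h.g0_supp γ hγ

theorem gm_mem (h : IsTriple g gp g0 gm Q) : gm ∈ supp (B := B) (posSub (-Q)) := by
  intro γ hγ
  by_cases h0 : γ = 0
  · exact Or.inl h0
  · refine Or.inr ?_
    rw [wt_neg]
    have := h.gm_supp γ h0 hγ
    omega

theorem gm_mem_le (h : IsTriple g gp g0 gm Q) : gm ∈ supp (B := B) (leSub Q) := by
  intro γ hγ
  by_cases h0 : γ = 0
  · subst h0
    exact (leSub Q).zero_mem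
  · exact (h.gm_supp γ h0 hγ).le

theorem g0_mem_le (h : IsTriple g gp g0 gm Q) : g0 ∈ supp (B := B) (leSub Q) :=
  fun γ hγ => (h.g0_supp γ hγ).le

theorem zero_neg_disj (Q : Fin r → ℤ) (γ : Fin r →₀ ℕ) (h : γ ∈ zeroSub Q)
    (h' : γ ∈ posSub (-Q)) : γ = 0 := by
  rcases mem_posSub.1 h' with h' | h'
  · exact h'
  · rw [wt_neg, mem_zeroSub.1 h] at h'
    omega

theorem triple_mem_supp {N : AddSubmonoid (Fin r →₀ ℕ)} (h : IsTriple g gp g0 gm Q)
    (hg : g ∈ supp (B := B) N) :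
    gp ∈ supp (B := B) N ∧ g0 ∈ supp (B := B) N ∧ gm ∈ supp (B := B) N := by
  have e : g = gp * (g0 * gm) := by rw [← mul_assoc]; exact h.eq
  have h00 : (g0 * gm) 0 = 1 := by rw [mul_zero_apply, h.g0_zero, h.gm_zero, one_mul]
  obtain ⟨a, b⟩ := factor_mem_supp (N := N) (pos_le_disj Q) h.gp_zero h00 (gp_mem h)
    (mul_mem (g0_mem_le h) (gm_mem_le h)) (e ▸ hg)
  obtain ⟨c, d⟩ := factor_mem_supp (N := N) (zero_neg_disj Q) h.g0_zero h.gm_zero (g0_mem h)
    (gm_mem h) b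
  exact ⟨a, c, d⟩

theorem exists_triple (h : g 0 = 1) (Q : Fin r → ℤ) :
    ∃ gp g0 gm : QSeries B, IsTriple g gp g0 gm Q := by
  obtain ⟨gp, gl, h1, h2, h3, h4, h5⟩ := exists_factor (pos_le_disj Q) (pos_or_le Q) g h
  -- factor `gl` along `Q ≥ 0` and `Q < 0`
  obtain ⟨g0, gm, k1, k2, k3, k4, k5⟩ := exists_factor (B := B) (P := leSub (-Q))
    (L := posSub (-Q)) (fun γ a b => pos_le_disj (-Q) γ b a) (fun γ => (pos_or_le (-Q) γ).symm)
    gl h2
  have k6 := factor_mem_supp (N := leSub Q) (fun γ a b => pos_le_disj (-Q) γ b a) k1 k2 k3 k4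
    (k5 ▸ h4)
  refine ⟨gp, g0, gm, ⟨h1, ?_, k1, ?_, k2, ?_, ?_⟩⟩
  · intro γ h0 hγ
    exact (mem_posSub.1 (h3 γ hγ)).resolve_left h0
  · intro γ hγ
    have a1 := mem_leSub.1 (k3 γ hγ)
    have a2 := mem_leSub.1 (k6.1 γ hγ)
    rw [wt_neg] at a1
    omega
  · intro γ h0 hγ
    have := (mem_posSub.1 (k4 γ hγ)).resolve_left h0
    rw [wt_neg] at this
    omega
  · rw [h5, k5, mul_assoc]

/-- Truncated uniqueness of triples. -/
theorem triple_congr {g' gp' g0' gm' : QSeries B} {D : ℕ} (h : IsTriple g gp g0 gm Q)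
    (h' : IsTriple g' gp' g0' gm' Q) (he : EqD D g g') :
    EqD D gp gp' ∧ EqD D g0 g0' ∧ EqD D gm gm' := by
  have e : g = gp * (g0 * gm) := by rw [← mul_assoc]; exact h.eq
  have e' : g' = gp' * (g0' * gm') := by rw [← mul_assoc]; exact h'.eq
  have h00 : (g0 * gm) 0 = 1 := by rw [mul_zero_apply, h.g0_zero, h.gm_zero, one_mul]
  have h00' : (g0' * gm') 0 = 1 := by rw [mul_zero_apply, h'.g0_zero, h'.gm_zero, one_mul]
  have key1 : ∀ γ, deg γ ≤ D → gp γ = gp' γ ∧ (g0 * gm) γ = (g0' * gm') γ := by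
    intro γ hγ
    refine factor_congr (pos_le_disj Q) γ (fun _ _ => Iff.rfl) (fun _ _ => Iff.rfl)
      h.gp_zero h'.gp_zero ?_ ?_ (gp_mem h) (gp_mem h') (mul_mem (g0_mem_le h) (gm_mem_le h))
      (mul_mem (g0_mem_le h') (gm_mem_le h')) ?_ γ le_rfl
    · rw [mul_zero_apply, h.gp_zero, h00, one_mul]
    · rw [mul_zero_apply, h'.gp_zero, h00', one_mul]
    · intro δ hδ
      rw [← e, ← e']
      exact he δ ((deg_mono hδ).trans hγ)
  have key2 : ∀ γ, deg γ ≤ D → g0 γ = g0' γ ∧ gm γ = gm' γ := by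
    intro γ hγ
    refine factor_congr (zero_neg_disj Q) γ (fun _ _ => Iff.rfl) (fun _ _ => Iff.rfl)
      h.g0_zero h'.g0_zero h00 h00' (g0_mem h) (g0_mem h') (gm_mem h) (gm_mem h') ?_ γ le_rfl
    intro δ hδ
    exact (key1 δ ((deg_mono hδ).trans hγ)).2
  exact ⟨fun γ hγ => (key1 γ hγ).1, fun γ hγ => (key2 γ hγ).1, fun γ hγ => (key2 γ hγ).2⟩

end triple

end

end Vale.Agent.P066.Theta.H307
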